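import Vale.Agent.P092.H793.Lat

/-!
P092 (helper719), [SX-LAT]: the image of a lattice under a proper homomorphism with normal
cocompact range is a lattice.
-/

set_option linter.all false

open MeasureTheory MeasureTheory.Measure Set Filter Topology TopologicalSpace
open scoped ENNReal

namespace Vale.Agent.P092.H719.Lt

open Vale.Agent.P092.H515.St

/-- a compact second countable Hausdorff space is Polish -/
theorem polish_compact (X : Type*) [TopologicalSpace X] [CompactSpace X] [T2Space X]
    [SecondCountableTopology X] : PolishSpace X := by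
  haveI : MetrizableSpace X := metrizableSpace_of_t3_secondCountable X
  letI : MetricSpace X := metrizableSpaceMetric X
  infer_instance

section abs

variable {E G : Type} [Group E] [TopologicalSpace E] [IsTopologicalGroup E]
  [Group G] [TopologicalSpace G] [IsTopologicalGroup G] [T2Space G] [LocallyCompactSpace G]
  [SecondCountableTopology G]

/-- A proper homomorphism has closed range. -/
theorem closed_range (p : E →* G) (hc : Continuous p)
    (hp : ∀ C : Set G, IsCompact C → IsCompact (p ⁻¹' C)) : IsClosed (p.range : Set G) := by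
  have h1 : IsProperMap p := isProperMap_iff_isCompact_preimage.2 ⟨hc, fun C hC => hp C hC⟩
  have h2 := h1.isClosedMap _ isClosed_univ
  rw [image_univ] at h2
  exact h2

/-- **Lattices under proper homomorphisms with normal cocompact range** -/
theorem lat_cocpt [T2Space E] (p : E →* G) (hc : Continuous p)
    (hp : ∀ C : Set G, IsCompact C → IsCompact (p ⁻¹' C)) (hn : p.range.Normal)
    {C : Set G} (hC : IsCompact C) (hCG : ∀ g, ∃ c ∈ C, ∃ e, g = c * p e)
    {Γ : Subgroup E} (hΓ : IsLattice Γ) : IsLattice (Γ.map p) := by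
  haveI := hΓ.disc
  refine ⟨H793.discrete_map p hp Γ, ?_⟩
  obtain ⟨ν, h0, h1, h2⟩ := hΓ.covol
  letI : MeasurableSpace (E ⧸ Γ) := borel _
  haveI : BorelSpace (E ⧸ Γ) := ⟨rfl⟩
  letI : MeasurableSpace (G ⧸ Γ.map p) := borel _
  haveI : BorelSpace (G ⧸ Γ.map p) := ⟨rfl⟩
  letI : MeasurableSpace G := borel _
  haveI : BorelSpace G := ⟨rfl⟩
  haveI := hn
  haveI hcl : IsClosed (p.range : Set G) := closed_range p hc hp
  letI : MeasurableSpace (G ⧸ p.range) := borel _
  haveI : BorelSpace (G ⧸ p.range) := ⟨rfl⟩
  haveI : T2Space (G ⧸ p.range) := inferInstance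
  haveI : SecondCountableTopology (G ⧸ p.range) := inferInstance
  haveI : SecondCountableTopology (G ⧸ Γ.map p) := inferInstance
  -- the quotient is compact
  haveI hQ : CompactSpace (G ⧸ p.range) := by
    refine ⟨?_⟩
    have h3 := hC.image (QuotientGroup.continuous_mk (N := p.range))
    refine h3.of_isClosed_subset isClosed_univ fun x _ => ?_
    obtain ⟨g, rfl⟩ := QuotientGroup.mk_surjective x
    obtain ⟨c, hcC, e, rfl⟩ := hCG g
    exact ⟨c, hcC, (QuotientGroup.mk_mul_of_mem c (⟨e, rfl⟩ : p e ∈ p.range)).symm⟩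
  -- the measure on `G ⧸ Γ.map p` carried by the orbit of the range
  haveI : IsFiniteMeasure ν := ⟨h1⟩
  let f : E ⧸ Γ → G ⧸ Γ.map p := Quotient.lift
    (fun g => (QuotientGroup.mk (p g) : G ⧸ Γ.map p)) (by
      intro a b hab
      have hab' : a⁻¹ * b ∈ Γ := by
        rwa [← QuotientGroup.leftRel_apply]
      rw [QuotientGroup.eq, ← map_inv, ← map_mul]
      exact ⟨_, hab', rfl⟩)
  have hf : Continuous f := continuous_quot_lift _ (continuous_quotient_mk'.comp hc)
  have hfe : ∀ (e : E) (x : E ⧸ Γ), f (e • x) = p e • f x := by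
    intro e x
    obtain ⟨a, rfl⟩ := QuotientGroup.mk_surjective x
    change (QuotientGroup.mk (p (e * a)) : G ⧸ Γ.map p) = QuotientGroup.mk (p e * p a)
    rw [map_mul]
  let ν' : Measure (G ⧸ Γ.map p) := ν.map f
  have hνf : IsFiniteMeasure ν' := Measure.isFiniteMeasure_map ν f
  have hcs : ∀ g : G, Measurable fun x : G ⧸ Γ.map p => g • x := fun g =>
    (continuous_const_smul g).measurable
  have hinv : ∀ (e : E) (S : Set (G ⧸ Γ.map p)), MeasurableSet S →
      ν' ((fun x => p e • x) ⁻¹' S) = ν' S := by
    intro e S hS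
    rw [Measure.map_apply hf.measurable (hcs _ hS), Measure.map_apply hf.measurable hS,
      ← h2 e _ (hf.measurable hS)]
    congr 1
    ext x
    rw [mem_preimage, mem_preimage, mem_preimage, mem_preimage, hfe]
  -- translates
  let F : G → Set (G ⧸ Γ.map p) → ℝ≥0∞ := fun g S => ν' ((fun x => g • x) ⁻¹' S)
  have hF : ∀ g h : G, h ∈ p.range → ∀ S, MeasurableSet S → F (g * h) S = F g S := by
    rintro g _ ⟨e, rfl⟩ S hS
    change ν' ((fun x => (g * p e) • x) ⁻¹' S) = ν' ((fun x => g • x) ⁻¹' S)
    rw [← hinv e _ (hcs g hS)]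
    congr 1
    ext x
    simp only [mem_preimage, mul_smul]
  let κ : G ⧸ p.range → Measure (G ⧸ Γ.map p) := fun q => ν'.map fun x => q.out • x
  have hκ : ∀ (g : G) (S : Set (G ⧸ Γ.map p)), MeasurableSet S →
      κ (QuotientGroup.mk g) S = F g S := by
    intro g S hS
    change (ν'.map fun x => (QuotientGroup.mk g : G ⧸ p.range).out • x) S = _
    rw [Measure.map_apply (hcs _) hS]
    obtain ⟨h, hh⟩ := QuotientGroup.mk_out_eq_mul p.range g
    rw [hh]
    exact hF g h h.2 S hS
  -- measurability
  haveI hCc : CompactSpace C := isCompact_iff_compactSpace.1 hC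
  haveI : PolishSpace C := polish_compact C
  have hFm : ∀ S : Set (G ⧸ Γ.map p), MeasurableSet S → Measurable fun g => F g S := by
    intro S hS
    have h3 : Measurable fun z : G × (G ⧸ Γ.map p) => z.1 • z.2 := continuous_smul.measurable
    exact measurable_measure_prodMk_left (h3 hS)
  have hκm : Measurable κ := by
    refine Measure.measurable_of_measurable_coe _ fun S hS => ?_
    let π : C → G ⧸ p.range := fun c => QuotientGroup.mk c.1
    have hπ : Continuous π := QuotientGroup.continuous_mk.comp continuous_subtype_val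
    have hπs : Function.Surjective π := by
      intro x
      obtain ⟨g, rfl⟩ := QuotientGroup.mk_surjective x
      obtain ⟨c, hcC, e, rfl⟩ := hCG g
      exact ⟨⟨c, hcC⟩, (QuotientGroup.mk_mul_of_mem c (⟨e, rfl⟩ : p e ∈ p.range)).symm⟩
    rw [← hπ.measurable.measurable_comp_iff_of_surjective hπs]
    have h3 : ((fun q => κ q S) ∘ π) = fun c : C => F c.1 S := funext fun c => hκ c.1 S hS
    rw [h3]
    exact (hFm S hS).comp measurable_subtype_coe
  let η : Measure (G ⧸ p.range) := Measure.haar
  have hη : IsFiniteMeasure η := inferInstance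
  refine ⟨η.bind κ, ?_, ?_, ?_⟩
  · intro hz
    have h3 : (η.bind κ) univ = 0 := by rw [hz]; rfl
    rw [Measure.bind_apply MeasurableSet.univ hκm.aemeasurable] at h3
    have h4 : ∀ q, κ q univ = ν' univ := fun q => by
      obtain ⟨g, rfl⟩ := QuotientGroup.mk_surjective q
      rw [hκ g _ MeasurableSet.univ]
      rfl
    simp only [h4, lintegral_const, mul_eq_zero] at h3
    rcases h3 with h3 | h3
    · apply h0
      rw [← Measure.measure_univ_eq_zero]
      rwa [Measure.map_apply hf.measurable MeasurableSet.univ] at h3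
    · exact (Measure.measure_univ_ne_zero.2 (NeZero.ne η)) h3
  · rw [Measure.bind_apply MeasurableSet.univ hκm.aemeasurable]
    have h4 : ∀ q, κ q univ = ν' univ := fun q => by
      obtain ⟨g, rfl⟩ := QuotientGroup.mk_surjective q
      rw [hκ g _ MeasurableSet.univ]
      rfl
    simp only [h4, lintegral_const]
    exact ENNReal.mul_lt_top (measure_lt_top _ _) (measure_lt_top _ _)
  · intro g S hS
    rw [Measure.bind_apply (hcs g hS) hκm.aemeasurable, Measure.bind_apply hS hκm.aemeasurable]
    have h3 : ∀ q, κ q ((fun x => g • x) ⁻¹' S) =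
        κ ((QuotientGroup.mk g : G ⧸ p.range) * q) S := by
      intro q
      obtain ⟨x, rfl⟩ := QuotientGroup.mk_surjective q
      rw [← QuotientGroup.mk_mul, hκ x _ (hcs g hS), hκ (g * x) _ hS]
      change ν' _ = ν' _
      congr 1
      ext y
      simp only [mem_preimage, mul_smul]
    simp only [h3]
    exact lintegral_mul_left_eq_self (fun q => κ q S) _

end abs

end Vale.Agent.P092.H719.Lt
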