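import Vale.Agent.P092.H719.Lat2
import Vale.Agent.P092.UN.StG

/-!
P092 (helper719), [SX-LAT]: the class `UN.TypeG` contains `SL_n(k)/Z` (`UN.TypeA`) and `PGL_n(k)`;
lattices in products of groups of the class are lattices in products of groups `PGL_n(k)`.
-/

set_option linter.all false

open Matrix Filter Topology TopologicalSpace

namespace Vale.Agent.P092.H719.Lt

open Vale.Agent.P092.H515.St Vale.Agent.P092.SR.St
open Vale.Agent.P092.RC (PG GG)
open Vale.Agent.P092.H35 (sp mkP mkP_eq_iff mkP_surj mkP_cont sp_cont sp_apply sp_proper sp_central)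
open Vale.Agent.P092.H387.Ad (PS NF spq spq_mk)

theorem ng_of_typeG {E : Type} [Group E] [TopologicalSpace E] (h : UN.TypeG E) : NG E := by
  obtain ⟨htg, ht2, k, hk, n, p, hP, hL, hn, hc, hp, hz, hs⟩ := h
  obtain ⟨N, rfl⟩ : ∃ N, n = N + 1 := ⟨n - 1, by omega⟩
  refine ⟨htg, ht2, N, k, hk, hP, p, (UN.locK_iff k).1 hL, by omega, hc, hp, fun e he x => ?_,
    fun g => ?_⟩
  · exact Subgroup.mem_center_iff.1 (hz (MonoidHom.mem_ker.2 he)) x
  · obtain ⟨e, he⟩ := hs (SpecialLinearGroup.toGL g) g.2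
    exact ⟨e, he⟩

theorem typeG_of_ng {E : Type} [Group E] [TopologicalSpace E] (h : NG E) : UN.TypeG E := by
  obtain ⟨htg, ht2, N, k, hk, hP, p, hL, hN, hc, hp, hz, hs⟩ := h
  refine ⟨htg, ht2, k, hk, N + 1, p, hP, (UN.locK_iff k).2 hL, by omega, hc, hp, fun e he => ?_,
    fun g hg => ?_⟩
  · exact Subgroup.mem_center_iff.2 fun x => hz e (MonoidHom.mem_ker.1 he) x
  · obtain ⟨s, hs'⟩ := exists_sp hg
    obtain ⟨e, he⟩ := hs s
    exact ⟨e, he.trans hs'⟩

theorem ng_of_nf {E : Type} [Group E] [TopologicalSpace E] (h : NF E) : NG E := by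
  obtain ⟨htg, ht2, n, k, hk, hP, p, hL, hn, hc, hs, hp, hz⟩ := h
  obtain ⟨N, rfl⟩ : ∃ N, n = N + 1 := ⟨n - 1, by omega⟩
  haveI : T2Space (PG k (N + 1)) := H144.Geo.t2_pg _ _
  let a : PS (N + 1) k →* PG k (N + 1) :=
    spq k N (Subgroup.center (SpecialLinearGroup (Fin (N + 1)) k)) le_rfl
  have ha : Continuous a := (sp_cont (k := k) (n := N + 1)).quotient_lift _
  have hm : ∀ g : GG k N, a (QuotientGroup.mk' _ g) = sp k (N + 1) g := fun g => rfl
  refine ⟨htg, ht2, N, k, hk, hP, a.comp p, hL, by omega, ha.comp hc, fun C hC => ?_,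
    fun e he x => ?_, fun g => ?_⟩
  · have h1 : IsCompact (a ⁻¹' C) := by
      have h2 := (sp_proper (Nat.succ_ne_zero N) hC hC.isClosed).image
        (continuous_quotient_mk' (s := QuotientGroup.leftRel
          (Subgroup.center (SpecialLinearGroup (Fin (N + 1)) k))))
      refine h2.of_isClosed_subset (hC.isClosed.preimage ha) fun y hy => ?_
      obtain ⟨g, rfl⟩ := QuotientGroup.mk'_surjective _ y
      exact ⟨g, hy, rfl⟩
    exact hp _ h1
  · have h1 : a (p e) = 1 := he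
    obtain ⟨g, hg⟩ := QuotientGroup.mk'_surjective _ (p e)
    rw [← hg, hm] at h1
    refine hz e ?_ x
    rw [← hg]
    exact (QuotientGroup.eq_one_iff g).2 (Subgroup.mem_center_iff.2 fun y => sp_central h1 y)
  · obtain ⟨e, he⟩ := hs (QuotientGroup.mk' _ g)
    refine ⟨e, ?_⟩
    change a (p e) = _
    rw [he, hm]

/-- `SL_n(k)/Z` -/
theorem typeG_of_typeA {E : Type} [Group E] [TopologicalSpace E] (h : UN.TypeA E) : UN.TypeG E :=
  typeG_of_ng (ng_of_nf (UN.nf_typeA h))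

/-- `PGL_n(k)` -/
theorem typeG_pgl {k : Type} [NontriviallyNormedField k] [ProperSpace k] (hk : UN.LocK k) {n : ℕ}
    (hn : 3 ≤ n) : UN.TypeG (GL (Fin n) k ⧸ Subgroup.center (GL (Fin n) k)) :=
  ⟨inferInstance, H144.Geo.t2_pg k n, k, inferInstance, n, MonoidHom.id _, inferInstance, hk, hn,
    continuous_id, fun C hC => hC, fun e he => by
      have he : e = 1 := he
      rw [he]
      exact one_mem _, fun g _ => ⟨QuotientGroup.mk g, rfl⟩⟩

theorem latticeG_of_latticeA {Γ : Type} [Group Γ] (h : UN.LatticeA Γ) : UN.LatticeG Γ := by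
  obtain ⟨hicc, I, hI, E, hE, hT, i, ht, hi, hl⟩ := h
  exact ⟨hicc, I, hI, E, hE, hT, i, fun j => typeG_of_typeA (ht j), hi, hl⟩

/-- **[SX-LAT]** the lattices of `UN.LatticeG` are lattices of products of groups `PGL_n(k)` -/
theorem exists_pgl {Γ : Type} [Group Γ] (h : UN.LatticeG Γ) :
    ICC Γ ∧ ∃ (I : Type) (_ : Fintype I) (N : I → ℕ) (k : I → Type)
      (_ : ∀ j, NontriviallyNormedField (k j)) (_ : ∀ j, ProperSpace (k j))
      (i : Γ →* ∀ j, PG (k j) (N j + 1)), (∀ j, LocK (k j)) ∧ (∀ j, 2 ≤ N j) ∧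
        Function.Injective i ∧ IsLattice i.range := by
  obtain ⟨hicc, I, hI, E, hE, hT, i, ht, hi, hl⟩ := h
  obtain ⟨N, k, hk, hP, i', hL, hN, hi', hl'⟩ :=
    lat_pg (fun j => ng_of_typeG (ht j)) hicc i hi ((UN.isLattice_iff _).1 hl)
  exact ⟨hicc, I, hI, N, k, hk, hP, i', hL, hN, hi', hl'⟩

/-- one target side: `UN.Super` from the core statement of the products of groups `PGL_n(k)` -/
theorem super_latticeG (h : ∀ (I : Type) [Fintype I] (N : I → ℕ) (k : I → Type)
    [∀ j, NontriviallyNormedField (k j)] [∀ j, ProperSpace (k j)], (∀ j, LocK (k j)) →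
    (∀ j, 2 ≤ N j) → SN.CoreE (∀ j, PG (k j) (N j + 1))) :
    ∀ (Γ : Type) [Group Γ], UN.LatticeG Γ → UN.Super Γ := by
  intro Γ _ hΓ
  obtain ⟨hicc, I, hI, N, k, hk, hP, i, hL, hN, hi, hl⟩ := exists_pgl hΓ
  exact UN.super_of (SN.super_of_coreE (h I N k hL hN) hicc i hi hl)

end Vale.Agent.P092.H719.Lt
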