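import Vale.Agent.P092.H121.Cls
import Vale.Agent.P092.SN.Blocks2
import Vale.Agent.P092.H218.NAll
import Vale.Agent.P092.H835.MooreL
import Vale.Agent.P092.H411.NAgr

/-!
P092, TEAM N, block [N-CLS] (helper719, insurance): `clsStmt`, the classical leg from helper121's
abstract theorem `H121.clsO_of`, `H218.NAll`, `H835.moore_fix` and `H411.zero_one_sub`.
-/

set_option linter.all false

open scoped InnerProductSpace ENNReal LinearAlgebra.Projectivization ZeroAtInfty
open Filter Topology ContinuousLinearMap MeasureTheory TopologicalSpace Matrix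

namespace Vale.Agent.P092.H719.ClsFin

open Vale.Agent.P092.RC (Cm TRN Moore GG PG YY y0 ct)
open Vale.Agent.P092.H100.Gr (Gr)
open Vale.Agent.P092.H644.Gr3 (p1 hyp p1H hypH p1_le_hyp)
open Vale.Agent.P092.H35 (sp)
open Vale.Agent.P092.SN
open Vale.Agent.P092.H933 (LocK)

section hom

variable {k : Type} [NontriviallyNormedField k] {N : ℕ} {Γ : Type} [Group Γ]

/-- `q` as a homomorphism to `PGL_n(k)` -/
noncomputable def qh (q : Γ → GG k N) (h : PH q) : Γ →* PG k (N + 1) :=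
  MonoidHom.mk' (fun γ => sp k (N + 1) (q γ)) fun γ γ' => by
    rw [← map_mul]
    obtain ⟨c, hc⟩ := h γ γ'
    have h2 : sp k (N + 1) (q (γ * γ') * (q γ * q γ')⁻¹) = 1 := by
      rw [H35.sp_one_iff]
      refine ⟨c, ?_⟩
      change (q (γ * γ')).1 * ((q γ * q γ')⁻¹).1 = c • 1
      rw [hc, smul_mul_assoc]
      congr 1
      have h3 : (q γ * q γ') * (q γ * q γ')⁻¹ = 1 := mul_inv_cancel _
      exact congrArg Subtype.val h3
    rw [map_mul, map_inv, mul_inv_eq_one] at h2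
    exact h2

theorem qh_apply (q : Γ → GG k N) (h : PH q) (γ : Γ) : qh q h γ = sp k (N + 1) (q γ) := rfl

end hom

section lin

variable {k : Type} [NontriviallyNormedField k] {N : ℕ}

/-- the span of two coordinate vectors -/
def Lij (i j : Fin (N + 1)) : Submodule k (Fin (N + 1) → k) :=
  Submodule.span k {H121.ee i, H121.ee j}

theorem lij_ne (hN : 2 ≤ N) (i j : Fin (N + 1)) :
    (Lij i j : Submodule k (Fin (N + 1) → k)) ≠ ⊤ := by
  classical
  intro h
  have h1 : Module.finrank k (Lij i j : Submodule k (Fin (N + 1) → k)) ≤ 2 := by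
    have h2 := finrank_span_finset_le_card (R := k)
      ({H121.ee i, H121.ee j} : Finset (Fin (N + 1) → k))
    rw [Finset.coe_pair] at h2
    exact h2.trans Finset.card_le_two
  rw [h, finrank_top, Module.finrank_fin_fun] at h1
  omega

theorem fixL_of {E : Type} [Group E] {a : E →* PG k (N + 1)} {i j : Fin (N + 1)} {e : E}
    (h : ∀ x : YY k N, x.submodule ≤ (Lij i j : Submodule k (Fin (N + 1) → k)) → a e • x = x) :
    H121.FixL i j (a e) := by
  intro α β hv
  refine h _ ?_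
  rw [H121.pt_of hv]
  change (Projectivization.mk k _ hv).submodule ≤ _
  rw [Projectivization.submodule_mk, Submodule.span_singleton_le_iff_mem]
  refine Submodule.add_mem _ (Submodule.smul_mem _ _ ?_) (Submodule.smul_mem _ _ ?_)
  · exact Submodule.subset_span (Or.inr rfl)
  · exact Submodule.subset_span (Or.inl rfl)

end lin

section stmt

variable {k : Type} [NontriviallyNormedField k] [ProperSpace k]

/-- functions of points as functions of `1`-dimensional subspaces -/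
noncomputable def up {N : ℕ} (f : CY k N) : CG k N 1 :=
  f.comp ((p1H (k := k) (ι := Fin (N + 1))).symm : C(Gr k (Fin (N + 1)) 1, YY k N))

/-- functions of hyperplanes as functions of `N`-dimensional subspaces -/
noncomputable def uh {N : ℕ} (f : CY k N) : CG k N N :=
  f.comp ((hypH (k := k) (m := N)).symm : C(Gr k (Fin (N + 1)) N, YY k N))

theorem fp_up {N : ℕ} (f : CY k N) : fp (up f) = f := by
  ext x
  change f ((p1H (k := k) (ι := Fin (N + 1))).symm (p1H x)) = f x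
  rw [Homeomorph.symm_apply_apply]

theorem fh_uh {N : ℕ} (f : CY k N) : fh (uh f) = f := by
  ext x
  change f ((hypH (k := k) (m := N)).symm (hypH x)) = f x
  rw [Homeomorph.symm_apply_apply]

theorem ts_up {N : ℕ} {f : CY k N} {L : Gr k (Fin (N + 1)) 1} (h : L ∈ tsupport ⇑(up f)) :
    (p1H (k := k) (ι := Fin (N + 1))).symm L ∈ tsupport ⇑f := by
  have h1 := tsupport_comp_subset_preimage (f := (p1H (k := k) (ι := Fin (N + 1))).symm) ⇑f
    (Homeomorph.continuous _)
  exact h1 h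

theorem ts_uh {N : ℕ} {f : CY k N} {L : Gr k (Fin (N + 1)) N} (h : L ∈ tsupport ⇑(uh f)) :
    (hypH (k := k) (m := N)).symm L ∈ tsupport ⇑f := by
  have h1 := tsupport_comp_subset_preimage (f := (hypH (k := k) (m := N)).symm) ⇑f
    (Homeomorph.continuous _)
  exact h1 h

theorem nin_of {N : ℕ} {u v : CY k N}
    (h : ∀ x ∈ tsupport ⇑u, ∀ y ∈ tsupport ⇑v, ¬ Projectivization.orthogonal x y) :
    H232.Nin H218.NC.In (up u) (uh v) := by
  intro L hL M hM hLM
  refine h _ (ts_up hL) _ (ts_uh hM) ?_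
  rw [← p1_le_hyp]
  have e1 : p1 ((p1H (k := k) (ι := Fin (N + 1))).symm L) = L :=
    (p1H (k := k) (ι := Fin (N + 1))).apply_symm_apply L
  have e2 : hyp ((hypH (k := k) (m := N)).symm M) = M := (hypH (k := k) (m := N)).apply_symm_apply M
  rw [e1, e2]
  exact hLM

theorem nin_to {N : ℕ} {u : CG k N 1} {v : CG k N N} (h : H232.Nin H218.NC.In u v) :
    ∀ x ∈ tsupport ⇑(fp u), ∀ y ∈ tsupport ⇑(fh v), ¬ Projectivization.orthogonal x y := by
  intro x hx y hy hxy
  have h1 := tsupport_comp_subset_preimage (f := p1 (k := k) (ι := Fin (N + 1))) ⇑u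
    H644.Gr3.p1_cont
  have h2 := tsupport_comp_subset_preimage (f := hyp (k := k) (m := N)) ⇑v H644.Gr3.hyp_cont
  exact h _ (h1 hx) _ (h2 hy) (p1_le_hyp.2 hxy)

variable {N : ℕ} {E Γ K : Type} [Group E] [TopologicalSpace E] [Group Γ] [NormedAddCommGroup K]
    [InnerProductSpace ℂ K] [CompleteSpace K] {w : kˣ} {ι : GG k N →* E}
    {a a' : E →* PG k (N + 1)} {π : E →* (K →L[ℂ] K)} {lam : Γ →* (K →L[ℂ] K)}
    {W : Set (K →L[ℂ] K)} {Ω : K} {m : Set Γ → (K →L[ℂ] K)} {q : Γ → GG k N} {Z : ℝ → Set Γ}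
    {Ec F : YY k N → (CY k N →⋆ₐ[ℂ] (K →L[ℂ] K))}
    {G : ∀ j, Gr k (Fin (N + 1)) j → (CG k N j →⋆ₐ[ℂ] (K →L[ℂ] K))}

theorem lg_of [MeasurableSpace k] {μ : Measure k} (hk : LocK k)
    (h : LegN μ w ι a a' π lam W Ω m q Z Ec F) (hC : CalN ι π lam W q Ec F G)
    (hK : H218.NC.Key₁ G) : H121.Lg a a' π lam W (qh q h.ph) Ec F := by
  have hN := h.adm.hN
  have eE : ∀ c f, G 1 (p1 c) (up f) = Ec c f := fun c f => by rw [hC.pnt, fp_up]
  have eF : ∀ M f, G N (hyp M) (uh f) = F M f := fun M f => by rw [hC.top, fh_uh]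
  refine ⟨h.adm.ort, ?_, ?_, ?_, ?_, ?_, h.e.pcov, h.f.pcov, ?_, ?_, h.e.cm, h.f.cm, ?_⟩
  · intro x y f g
    rw [← eE, ← eE]
    exact H218.NC.all_comm hN hC.cal hK 1 1 le_rfl (by omega) le_rfl (by omega) _ _ _ _
  · intro x y f g
    rw [← eE, ← eF]
    exact H218.NC.all_comm hN hC.cal hK 1 N le_rfl (by omega) (by omega) le_rfl _ _ _ _
  · intro x y f g
    rw [← eF, ← eF]
    exact H218.NC.all_comm hN hC.cal hK N N (by omega) le_rfl (by omega) le_rfl _ _ _ _
  · intro x y hxy u v huv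
    rw [← eE, ← eF]
    exact hC.cal.inc 1 N le_rfl (by omega) le_rfl _ _ (p1_le_hyp.2 hxy) _ _ (nin_of huv)
  · intro x y hxy ξ hξ
    refine H218.NC.ninc hN hC.cal hK 1 N le_rfl (by omega) (by omega) le_rfl (p1 x) (hyp y)
      (fun hle => hxy (p1_le_hyp.1 hle)) ξ fun u v huv => ?_
    rw [hC.pnt, hC.top]
    exact hξ _ _ (nin_to huv)
  · intro γ x f
    exact h.e.cov γ x f
  · intro γ
    refine ⟨⟨fun y => (ct (q γ))⁻¹ • y, continuous_const_smul _⟩, fun b f => ?_⟩
    exact h.f.cov γ b f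
  · intro i j hij M hM hW hL hπ
    refine H411.zero_one_sub h.pic (H835.moore_fix hk h.adm (lij_ne hN i j)) hM hW hL ?_
    intro e he ζ hζ
    refine ⟨hπ e (fixL_of he) ζ hζ, hπ e⁻¹ (fixL_of fun x hx => ?_) ζ hζ⟩
    rw [map_inv, inv_smul_eq_iff]
    exact (he x hx).symm

/-- **[N-CLS]**: `SN.ClsStmt` -/
theorem clsStmt [MeasurableSpace k] (hk : LocK k) (μ : Measure k) : ClsStmt k μ := by
  intro N E Γ K _ _ _ _ _ _ w ι a a' π lam W Ω m q Z Ec F G h hC hK
  have hL := lg_of hk h hC hK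
  haveI : Nontrivial K := ⟨⟨Ω, 0, fun h0 => by
    have h1 := h.pic.nΩ
    rw [h0, norm_zero] at h1
    exact zero_ne_one h1⟩⟩
  obtain ⟨Φ, hE, hF⟩ := H121.exists_phi hL
  obtain ⟨σ, hσ⟩ := H121.clsO_of hL hE hF h.adm.hN h.adm.comp
  exact ⟨σ, _, hσ.nd, hσ.cm, hσ.cov, hσ.pcov, hσ.mulE⟩

end stmt

end Vale.Agent.P092.H719.ClsFin
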