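import Vale.Agent.P092.H719.Lat1
import Vale.Agent.P092.UN.NfA
import Vale.Agent.P092.H144.GeoB
import Vale.Agent.P092.H789.Fr

/-!
P092 (helper719), [SX-LAT]: ICC lattices in finite products of groups `SL_n(k)`, `SL_n(k)/Z`,
`PSL_n(k)`, `PGL_n(k)` are lattices in products of groups `PGL_n(k)`.
-/

set_option linter.all false

open Matrix Filter Topology TopologicalSpace

namespace Vale.Agent.P092.H719.Lt

open Vale.Agent.P092.H515.St Vale.Agent.P092.SR.St
open Vale.Agent.P092.RC (PG GG)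
open Vale.Agent.P092.H35 (sp mkP mkP_eq_iff mkP_surj mkP_cont sp_cont sp_apply)
open Vale.Agent.P092.H387.Ad (PS NF prP prP_cont prP_proper prP_central inj_comp_icc)

/-! ### `PGL_n(k) = C · PSL_n(k)` -/

section one

variable {k : Type} [NontriviallyNormedField k] {n N : ℕ}

/-- an element of determinant one comes from `SL_n(k)` -/
theorem exists_sp {g : GL (Fin n) k} (h : g.1.det = 1) :
    ∃ s : SpecialLinearGroup (Fin n) k, sp k n s = mkP k n g :=
  ⟨(⟨g.1, h⟩ : SpecialLinearGroup (Fin n) k), congrArg (mkP k n) (Units.ext rfl)⟩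

/-- subgroups that contain `PSL_n(k)` are normal -/
theorem normal_of {E : Type} [Group E] (p : E →* PG k n) (h : ∀ g, sp k n g ∈ p.range) :
    p.range.Normal := by
  refine ⟨fun x hx g => ?_⟩
  obtain ⟨A, rfl⟩ := mkP_surj (k := k) (n := n) g
  obtain ⟨B, rfl⟩ := mkP_surj (k := k) (n := n) x
  have h1 : (A * B * A⁻¹ * B⁻¹).1.det = 1 := by
    have h2 : GeneralLinearGroup.det (A * B * A⁻¹ * B⁻¹) = 1 := by
      rw [map_mul, map_mul, map_mul, map_inv, map_inv]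
      rw [mul_comm (GeneralLinearGroup.det A), mul_inv_cancel_right, mul_inv_cancel]
    exact congrArg Units.val h2
  obtain ⟨s, hs⟩ := exists_sp h1
  have h3 : mkP k n A * mkP k n B * (mkP k n A)⁻¹ = sp k n s * mkP k n B := by
    rw [hs, map_mul, map_mul, map_mul, map_inv, map_inv, inv_mul_cancel_right]
  rw [h3]
  exact p.range.mul_mem (h s) hx

/-- `diag(u, 1, …, 1)` -/
def dg (u : kˣ) : GL (Fin (N + 1)) k where
  val := diagonal (Pi.mulSingle 0 (u : k))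
  inv := diagonal (Pi.mulSingle 0 ((u⁻¹ : kˣ) : k))
  val_inv := by
    rw [diagonal_mul_diagonal, ← diagonal_one]
    congr 1
    funext i
    rcases eq_or_ne i 0 with rfl | h
    · simp
    · simp [h]
  inv_val := by
    rw [diagonal_mul_diagonal, ← diagonal_one]
    congr 1
    funext i
    rcases eq_or_ne i 0 with rfl | h
    · simp
    · simp [h]

theorem dg_cont : Continuous (dg : kˣ → GL (Fin (N + 1)) k) := by
  have h1 : Continuous fun x : k => (diagonal (Pi.mulSingle 0 x) :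
      Matrix (Fin (N + 1)) (Fin (N + 1)) k) :=
    Continuous.matrix_diagonal (continuous_mulSingle (A := fun _ : Fin (N + 1) => k) 0)
  refine Units.continuous_iff.2 ⟨h1.comp Units.continuous_val, ?_⟩
  exact h1.comp (Units.continuous_val.comp continuous_inv)

theorem dg_det (u : kˣ) : (dg (N := N) u).1.det = u := by
  change (diagonal (Pi.mulSingle 0 (u : k)) : Matrix (Fin (N + 1)) (Fin (N + 1)) k).det = u
  rw [det_diagonal, Finset.prod_pi_mulSingle']
  simp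

theorem compact_shell [ProperSpace k] {ρ : ℝ} (hρ : 0 < ρ) :
    IsCompact {u : kˣ | ρ ≤ ‖(u : k)‖ ∧ ‖(u : k)‖ ≤ 1} := by
  rw [(Units.isEmbedding_val₀ (G₀ := k)).isCompact_iff]
  have h1 : Units.val '' {u : kˣ | ρ ≤ ‖(u : k)‖ ∧ ‖(u : k)‖ ≤ 1} =
      Metric.closedBall 0 1 ∩ {x : k | ρ ≤ ‖x‖} := by
    ext x
    constructor
    · rintro ⟨u, ⟨h1, h2⟩, rfl⟩
      exact ⟨mem_closedBall_zero_iff.2 h2, h1⟩
    · rintro ⟨h1, h2⟩
      have h3 : x ≠ 0 := norm_pos_iff.1 (hρ.trans_le h2)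
      exact ⟨Units.mk0 x h3, ⟨h2, mem_closedBall_zero_iff.1 h1⟩, rfl⟩
  rw [h1]
  exact (isCompact_closedBall (0 : k) 1).inter_right (isClosed_le continuous_const continuous_norm)

/-- `PGL_n(k)` is the product of a compact set and `PSL_n(k)` -/
theorem exists_cpt [ProperSpace k] : ∃ C : Set (PG k (N + 1)), IsCompact C ∧
    ∀ x, ∃ c ∈ C, ∃ s : GG k N, x = c * sp k (N + 1) s := by
  obtain ⟨w, hw0, hw1⟩ := NormedField.exists_norm_lt_one k
  set ρ : ℝ := ‖w‖ ^ (N + 1) with hρ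
  have hρ0 : 0 < ρ := pow_pos hw0 _
  have hρ1 : ρ < 1 := pow_lt_one₀ hw0.le hw1 (Nat.succ_ne_zero N)
  refine ⟨(fun u : kˣ => mkP k (N + 1) (dg u)) '' {u : kˣ | ρ ≤ ‖(u : k)‖ ∧ ‖(u : k)‖ ≤ 1},
    (compact_shell hρ0).image (mkP_cont.comp dg_cont), fun x => ?_⟩
  obtain ⟨g, rfl⟩ := mkP_surj (k := k) (n := N + 1) x
  have hd : g.1.det ≠ 0 := ((Matrix.isUnit_iff_isUnit_det g.1).1 g.isUnit).ne_zero
  have hw : w ≠ 0 := norm_pos_iff.1 hw0
  obtain ⟨m, hm1, hm2⟩ := exists_mem_Ioc_zpow (norm_pos_iff.2 hd)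
    ((one_lt_inv₀ hρ0).2 hρ1)
  set c : k := w ^ (m + 1) with hc
  have hc0 : c ≠ 0 := zpow_ne_zero _ hw
  have hcn : ‖c ^ (N + 1)‖ = ρ ^ (m + 1) := by
    rw [norm_pow, hc, norm_zpow, hρ, ← zpow_natCast, ← zpow_natCast, ← _root_.zpow_mul, ← _root_.zpow_mul,
      mul_comm]
  have hu0 : c ^ (N + 1) * g.1.det ≠ 0 := mul_ne_zero (pow_ne_zero _ hc0) hd
  have hρz : 0 < ρ ^ (m + 1) := zpow_pos hρ0 _
  have h1 : ρ ≤ ‖c ^ (N + 1) * g.1.det‖ := by
    rw [norm_mul, hcn]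
    have h2 : ρ ^ (m + 1) * ρ⁻¹ ^ m ≤ ρ ^ (m + 1) * ‖g.1.det‖ :=
      mul_le_mul_of_nonneg_left hm1.le hρz.le
    have h3 : ρ ^ (m + 1) * ρ⁻¹ ^ m = ρ := by
      rw [_root_.inv_zpow, zpow_add_one₀ hρ0.ne', mul_comm (ρ ^ m), mul_assoc,
        mul_inv_cancel₀ (zpow_ne_zero _ hρ0.ne'), mul_one]
    rwa [h3] at h2
  have h2 : ‖c ^ (N + 1) * g.1.det‖ ≤ 1 := by
    rw [norm_mul, hcn]
    have h2 : ρ ^ (m + 1) * ‖g.1.det‖ ≤ ρ ^ (m + 1) * ρ⁻¹ ^ (m + 1) :=
      mul_le_mul_of_nonneg_left hm2 hρz.le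
    have h3 : ρ ^ (m + 1) * ρ⁻¹ ^ (m + 1) = 1 := by
      rw [_root_.inv_zpow, mul_inv_cancel₀ (zpow_ne_zero _ hρ0.ne')]
    rwa [h3] at h2
  set u : kˣ := Units.mk0 _ hu0 with hu
  have hdet : ((dg (N := N) u)⁻¹.1 * (c • g.1)).det = 1 := by
    rw [det_mul, det_smul, Fintype.card_fin]
    have h4 : (dg (N := N) u)⁻¹.1.det * (dg (N := N) u).1.det = 1 := by
      rw [← det_mul, ← Units.val_mul, inv_mul_cancel, Units.val_one, det_one]
    rw [dg_det] at h4
    exact h4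
  let s : GG k N := ⟨_, hdet⟩
  refine ⟨_, ⟨u, ⟨h1, h2⟩, rfl⟩, s, ?_⟩
  change mkP k (N + 1) g = mkP k (N + 1) (dg u) * mkP k (N + 1) (SpecialLinearGroup.toGL s)
  rw [← map_mul, mkP_eq_iff]
  refine ⟨c, ?_⟩
  rw [Units.val_mul]
  change (dg (N := N) u).1 * ((dg (N := N) u)⁻¹.1 * (c • g.1)) = c • g.1
  rw [← Matrix.mul_assoc, ← Units.val_mul, mul_inv_cancel, Units.val_one, Matrix.one_mul]

end one

/-! ### Products -/

theorem prP_normal {I : Type} {E E' : I → Type} [∀ j, Group (E j)] [∀ j, Group (E' j)]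
    {p : ∀ j, E j →* E' j} (h : ∀ j, (p j).range.Normal) : (prP p).range.Normal := by
  refine ⟨?_⟩
  rintro _ ⟨x, rfl⟩ g
  choose y hy using fun j => (h j).conj_mem (p j (x j)) ⟨x j, rfl⟩ (g j)
  exact ⟨y, funext hy⟩

/-- a group with a proper homomorphism with central kernel to `PGL_n(k)`, `n ≥ 3`, whose range
contains `PSL_n(k)` -/
def NG (E : Type) [Group E] [TopologicalSpace E] : Prop :=
  IsTopologicalGroup E ∧ T2Space E ∧ ∃ (N : ℕ) (k : Type) (_ : NontriviallyNormedField k)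
    (_ : ProperSpace k) (p : E →* PG k (N + 1)), LocK k ∧ 2 ≤ N ∧ Continuous p ∧
      (∀ C : Set (PG k (N + 1)), IsCompact C → IsCompact (p ⁻¹' C)) ∧
      (∀ e, p e = 1 → ∀ x, x * e = e * x) ∧ ∀ g : GG k N, sp k (N + 1) g ∈ p.range

/-- **ICC lattices in finite products of groups of the class `NG` are lattices in products of groups
`PGL_n(k)`.** -/
theorem lat_pg {I : Type} [Fintype I] {E : I → Type} [∀ j, Group (E j)]
    [∀ j, TopologicalSpace (E j)] (hE : ∀ j, NG (E j)) {Γ : Type} [Group Γ] (hicc : ICC Γ)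
    (i : Γ →* ∀ j, E j) (hi : Function.Injective i) (hl : IsLattice i.range) :
    ∃ (N : I → ℕ) (k : I → Type) (_ : ∀ j, NontriviallyNormedField (k j))
      (_ : ∀ j, ProperSpace (k j)) (i' : Γ →* ∀ j, PG (k j) (N j + 1)),
      (∀ j, LocK (k j)) ∧ (∀ j, 2 ≤ N j) ∧ Function.Injective i' ∧ IsLattice i'.range := by
  haveI := fun j => (hE j).1
  haveI := fun j => (hE j).2.1
  choose N k hk hP p hL hN hc hp hz hs using fun j => (hE j).2.2
  haveI : ∀ j, T2Space (PG (k j) (N j + 1)) := fun j => H144.Geo.t2_pg _ _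
  haveI : ∀ j, SecondCountableTopology (PG (k j) (N j + 1)) := fun j => H144.Geo.sc_pg _ _
  haveI : ∀ j, LocallyCompactSpace (PG (k j) (N j + 1)) := fun j => H789.lcPG
  refine ⟨N, k, hk, hP, (prP p).comp i, hL, hN, inj_comp_icc hicc hi _ (prP_central hz), ?_⟩
  rw [MonoidHom.range_comp]
  choose C hC hCG using fun j => exists_cpt (k := k j) (N := N j)
  refine lat_cocpt (prP p) (prP_cont hc) (prP_proper hc hp)
    (prP_normal fun j => normal_of (p j) (hs j)) (isCompact_univ_pi hC) ?_ hl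
  intro g
  choose c hcC s hs' using fun j => hCG j (g j)
  choose e he using fun j => hs j (s j)
  exact ⟨c, fun j _ => hcC j, e, funext fun j => by
    rw [hs' j, ← he j]
    rfl⟩

end Vale.Agent.P092.H719.Lt
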