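import Vale.Agent.P092.H87.UGeo

/-!
P092, D-ULTRA, block [DU-CAP] (helper719): capacity, group level. `k` any ultrametric normed
field, any characteristic; `Γ` any group with a homomorphism `q` to `3 × 3` matrices of which only
finitely many elements have bounded entries (a discrete subgroup with finite stabilisers). The
number of near-wall elements of size `t` whose repelling line is in a ball of radius `D / t ^ 3` is
bounded, the bound depends on `C` and `D` only.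
-/

set_option linter.all false

namespace Vale.Agent.P092.H719.U

open Matrix Vale.Agent.P092.H820 Vale.Agent.P092.H87.U

section Core

variable {k : Type*} [NormedField k] [IsUltrametricDist k]

lemma exists_coord (y : Fin 3 → k) (hy : ‖y‖ = 1) : ∃ c, ‖y c‖ = 1 := by
  obtain ⟨i, hi⟩ := Finite.exists_max fun i => ‖y i‖
  refine ⟨i, ?_⟩
  rw [← hy]
  exact le_antisymm (norm_le_pi_norm y i) ((pi_norm_le_iff_of_nonneg (norm_nonneg _)).2 hi)

/-- being within `r` of each other is transitive for normalised lines -/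
lemma wd_trans {u v y : Fin 3 → k} (hu : ‖u‖ ≤ 1) (hv : ‖v‖ ≤ 1) (hy : ‖y‖ = 1) {r : ℝ}
    (h1 : ‖wd u y‖ ≤ r) (h2 : ‖wd v y‖ ≤ r) : ‖wd u v‖ ≤ r := by
  have hr : 0 ≤ r := le_trans (norm_nonneg _) h1
  obtain ⟨c, hc⟩ := exists_coord y hy
  have hc0 : y c ≠ 0 := fun h => by rw [h, norm_zero] at hc; exact zero_ne_one hc
  refine (pi_norm_le_iff_of_nonneg hr).2 fun p => ?_
  have e : wd u v p = (u c * (wd v y (p.2, p.1)) + (wd u y (p.1, c) * v p.2 -
      wd u y (p.2, c) * v p.1)) / y c := by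
    rw [eq_div_iff hc0]
    simp only [wd]
    ring
  rw [e, norm_div, hc, div_one]
  have a1 : ∀ q, ‖wd u y q‖ ≤ r := fun q => (norm_le_pi_norm _ q).trans h1
  have a2 : ∀ q, ‖wd v y q‖ ≤ r := fun q => (norm_le_pi_norm _ q).trans h2
  have a3 : ∀ b, ‖v b‖ ≤ 1 := fun b => (norm_le_pi_norm _ b).trans hv
  have a4 : ∀ b, ‖u b‖ ≤ 1 := fun b => (norm_le_pi_norm _ b).trans hu
  have a5 : ∀ q b, ‖wd u y q * v b‖ ≤ r := fun q b => by
    rw [norm_mul]
    exact (mul_le_mul (a1 q) (a3 b) (norm_nonneg _) hr).trans (by rw [mul_one])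
  refine (IsUltrametricDist.norm_add_le_max _ _).trans (max_le ?_ ?_)
  · rw [norm_mul]
    exact (mul_le_mul (a4 c) (a2 _) (norm_nonneg _) zero_le_one).trans (by rw [one_mul])
  · rw [sub_eq_add_neg]
    refine (IsUltrametricDist.norm_add_le_max _ _).trans (max_le (a5 _ _) ?_)
    rw [norm_neg]
    exact a5 _ _

/-- close repelling lines with the same pivot: close vectors -/
lemma yy_close {C t r : ℝ} {g g' : Matrix (Fin 3) (Fin 3) k} {i j : Fin 3} (h : NWu C t g i j)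
    (h' : NWu C t g' i j) (hw : ‖wd (yy g' i j) (yy g i j)‖ ≤ r) :
    ‖yy g' i j - yy g i j‖ ≤ r := by
  refine (pi_norm_le_iff_of_nonneg (le_trans (norm_nonneg _) hw)).2 fun b => ?_
  have e : (yy g' i j - yy g i j) b = wd (yy g' i j) (yy g i j) (b, j) := by
    simp only [wd, Pi.sub_apply]
    rw [yy_j h, yy_j h']
    ring
  rw [e]
  exact (norm_le_pi_norm _ _).trans hw

/-- CAPACITY with a radius `D / t ^ 3`: two near-wall elements of the same size and pivot with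
repelling lines at distance at most `D / t ^ 3` differ by a bounded element on the left. -/
theorem cap_D {C t D : ℝ} {g g' : Matrix (Fin 3) (Fin 3) k} {i j : Fin 3} (h : NWu C t g i j)
    (h' : NWu C t g' i j) (hD : 1 ≤ D) (hy : ‖yy g' i j - yy g i j‖ ≤ D / t ^ 3) (a c : Fin 3) :
    ‖(g' * g.adjugate) a c‖ ≤ C ^ 3 * D := by
  have ht := h.t_pos
  have hC := h.C_pos
  have hD0 : 0 < D := lt_of_lt_of_le one_pos hD
  have hgij : 0 < ‖g i j‖ := norm_pos_iff.2 h.gij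
  have h1 : ∀ c, (yy g i j ᵥ* g.adjugate) c = (if i = c then 1 else 0) / g i j := by
    intro c
    have e1 : yy g i j = (g i j)⁻¹ • g i := by
      ext b; simp [yy, div_eq_inv_mul]
    have e2 : (g i) ᵥ* g.adjugate = fun c => (g * g.adjugate) i c := by
      ext c; rfl
    rw [e1, Matrix.smul_vecMul, e2, Matrix.mul_adjugate, h.det, one_smul, Pi.smul_apply,
      Matrix.one_apply, smul_eq_mul, div_eq_inv_mul]
  have h2 : ∀ c, ‖(yy g i j ᵥ* g.adjugate) c‖ ≤ C * D / t ^ 2 := by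
    intro c
    rw [h1, norm_div]
    have : ‖(if i = c then (1 : k) else 0)‖ ≤ 1 := by split_ifs <;> simp
    calc ‖(if i = c then (1 : k) else 0)‖ / ‖g i j‖ ≤ 1 / ‖g i j‖ :=
          div_le_div_of_nonneg_right this hgij.le
      _ ≤ C / t ^ 2 := by
          rw [div_le_div_iff₀ hgij (by positivity), one_mul]
          exact h.lo
      _ ≤ C * D / t ^ 2 := div_le_div_of_nonneg_right (le_mul_of_one_le_right hC.le hD)
          (by positivity)
  have h3 : ∀ c, ‖(yy g' i j ᵥ* g.adjugate) c‖ ≤ C * D / t ^ 2 := by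
    intro c
    have e : yy g' i j ᵥ* g.adjugate =
        yy g i j ᵥ* g.adjugate + (yy g' i j - yy g i j) ᵥ* g.adjugate := by
      rw [← Matrix.add_vecMul]; congr 1; abel
    rw [e, Pi.add_apply]
    refine (IsUltrametricDist.norm_add_le_max _ _).trans (max_le (h2 c) ?_)
    have : ‖((yy g' i j - yy g i j) ᵥ* g.adjugate) c‖ ≤ D / t ^ 3 * (C * t) := by
      refine (dot_le _ _).trans (mul_le_mul hy ?_ (norm_nonneg _) (by positivity))
      exact (pi_norm_le_iff_of_nonneg (by positivity)).2 fun b => h.adj b c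
    refine this.trans (le_of_eq ?_)
    field_simp
  have h4 : (g' * g.adjugate) a c = (g' i j * uu g' i j a) * (yy g' i j ᵥ* g.adjugate) c +
      EE g' i j a ⬝ᵥ (fun b => g.adjugate b c) := by
    simp only [Matrix.mul_apply, Matrix.vecMul, dotProduct, Fin.sum_univ_three]
    rw [g_eq h' a 0, g_eq h' a 1, g_eq h' a 2]
    ring
  rw [h4]
  refine (IsUltrametricDist.norm_add_le_max _ _).trans (max_le ?_ ?_)
  · rw [norm_mul, norm_mul]
    have hu : ‖uu g' i j a‖ ≤ 1 := (norm_le_pi_norm _ a).trans (uu_norm h').le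
    calc ‖g' i j‖ * ‖uu g' i j a‖ * ‖(yy g' i j ᵥ* g.adjugate) c‖
        ≤ C * t ^ 2 * 1 * (C * D / t ^ 2) := by
          refine mul_le_mul (mul_le_mul h'.hi hu (norm_nonneg _) (by positivity)) (h3 c)
            (norm_nonneg _) (by positivity)
      _ = C ^ 2 * D := by field_simp
      _ ≤ C ^ 3 * D := mul_le_mul_of_nonneg_right (pow_le_pow_right₀ h.one_le (by norm_num)) hD0.le
  · refine (dot_le _ _).trans ?_
    calc ‖EE g' i j a‖ * ‖fun b => g.adjugate b c‖ ≤ C ^ 2 / t * (C * t) := by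
          refine mul_le_mul ?_ ?_ (norm_nonneg _) (by positivity)
          · exact (pi_norm_le_iff_of_nonneg (by positivity)).2 fun b => EE_le h' a b
          · exact (pi_norm_le_iff_of_nonneg (by positivity)).2 fun b => h.adj b c
      _ = C ^ 3 := by field_simp
      _ ≤ C ^ 3 * D := le_mul_of_one_le_right (by positivity) hD

end Core

section Group

variable {k : Type*} [NormedField k] [IsUltrametricDist k] {Γ : Type*} [Group Γ]

/-- **Capacity, fixed pivot.** -/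
theorem card_le (q : Γ →* Matrix (Fin 3) (Fin 3) k)
    (hfin : ∀ B : ℝ, {γ : Γ | ∀ a b, ‖q γ a b‖ ≤ B}.Finite) (C D : ℝ) (hD : 1 ≤ D) :
    ∃ N : ℕ, ∀ (t : ℝ) (i j : Fin 3) (y : Fin 3 → k), ‖y‖ = 1 → ∀ S : Finset Γ,
      (∀ γ ∈ S, NWu C t (q γ) i j ∧ ‖wd (yy (q γ) i j) y‖ ≤ D / t ^ 3) → S.card ≤ N := by
  classical
  refine ⟨(hfin (C ^ 3 * D)).toFinset.card, fun t i j y hy S hS => ?_⟩
  rcases S.eq_empty_or_nonempty with rfl | ⟨γ₀, h₀⟩
  · simp
  have hinj : Set.InjOn (fun γ : Γ => γ * γ₀⁻¹) (S : Set Γ) := fun γ _ γ' _ h =>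
    mul_right_cancel h
  rw [← Finset.card_image_of_injOn hinj]
  refine Finset.card_le_card fun δ hδ => ?_
  obtain ⟨γ, hγ, rfl⟩ := Finset.mem_image.1 hδ
  rw [Set.Finite.mem_toFinset]
  intro a b
  obtain ⟨n0, w0⟩ := hS γ₀ h₀
  obtain ⟨n1, w1⟩ := hS γ hγ
  have hadj : q γ₀⁻¹ = (q γ₀).adjugate := by
    have e1 : (q γ₀).adjugate * q γ₀ = 1 := by rw [Matrix.adjugate_mul, n0.det, one_smul]
    have e2 : q γ₀ * q γ₀⁻¹ = 1 := by rw [← map_mul, mul_inv_cancel, map_one]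
    calc q γ₀⁻¹ = ((q γ₀).adjugate * q γ₀) * q γ₀⁻¹ := by rw [e1, one_mul]
      _ = (q γ₀).adjugate := by rw [mul_assoc, e2, mul_one]
  have := cap_D n0 n1 hD (yy_close n0 n1 (wd_trans (yy_norm n1).le (yy_norm n0).le hy w1 w0)) a b
  rwa [← hadj, ← map_mul] at this

/-- **Capacity, all pivots**: at most `N` near-wall elements of size `t` have their repelling line
in a given ball of radius `D / t ^ 3`. -/
theorem card_le' (q : Γ →* Matrix (Fin 3) (Fin 3) k)
    (hfin : ∀ B : ℝ, {γ : Γ | ∀ a b, ‖q γ a b‖ ≤ B}.Finite) (C D : ℝ) (hD : 1 ≤ D) :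
    ∃ N : ℕ, ∀ (t : ℝ) (y : Fin 3 → k), ‖y‖ = 1 → ∀ S : Finset Γ,
      (∀ γ ∈ S, ∃ i j, NWu C t (q γ) i j ∧ ‖wd (yy (q γ) i j) y‖ ≤ D / t ^ 3) →
      S.card ≤ N := by
  classical
  obtain ⟨N, hN⟩ := card_le q hfin C D hD
  refine ⟨9 * N, fun t y hy S hS => ?_⟩
  have hsub : S ⊆ (Finset.univ : Finset (Fin 3 × Fin 3)).biUnion fun p =>
      S.filter fun γ => NWu C t (q γ) p.1 p.2 ∧ ‖wd (yy (q γ) p.1 p.2) y‖ ≤ D / t ^ 3 := by
    intro γ hγ
    obtain ⟨i, j, h⟩ := hS γ hγ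
    rw [Finset.mem_biUnion]
    exact ⟨(i, j), Finset.mem_univ _, Finset.mem_filter.2 ⟨hγ, h⟩⟩
  refine (Finset.card_le_card hsub).trans (Finset.card_biUnion_le.trans ?_)
  refine (Finset.sum_le_card_nsmul _ _ N fun p _ => ?_).trans ?_
  · exact hN t p.1 p.2 y hy _ fun γ hγ => (Finset.mem_filter.1 hγ).2
  · simp

/-- the same for `q : Γ →* SL_3(k)` -/
theorem card_le_SL (q : Γ →* Matrix.SpecialLinearGroup (Fin 3) k)
    (hfin : ∀ B : ℝ, {γ : Γ | ∀ a b, ‖(q γ).1 a b‖ ≤ B}.Finite) (C D : ℝ) (hD : 1 ≤ D) :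
    ∃ N : ℕ, ∀ (t : ℝ) (y : Fin 3 → k), ‖y‖ = 1 → ∀ S : Finset Γ,
      (∀ γ ∈ S, ∃ i j, NWu C t (q γ).1 i j ∧ ‖wd (yy (q γ).1 i j) y‖ ≤ D / t ^ 3) →
      S.card ≤ N := by
  let q' : Γ →* Matrix (Fin 3) (Fin 3) k :=
    { toFun := fun γ => (q γ).1
      map_one' := by rw [map_one]; rfl
      map_mul' := fun a b => by rw [map_mul]; rfl }
  exact card_le' q' hfin C D hD

/-- the same for `q : Γ →* GL_3(k)` -/
theorem card_le_units (q : Γ →* (Matrix (Fin 3) (Fin 3) k)ˣ)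
    (hfin : ∀ B : ℝ, {γ : Γ | ∀ a b, ‖(q γ).1 a b‖ ≤ B}.Finite) (C D : ℝ) (hD : 1 ≤ D) :
    ∃ N : ℕ, ∀ (t : ℝ) (y : Fin 3 → k), ‖y‖ = 1 → ∀ S : Finset Γ,
      (∀ γ ∈ S, ∃ i j, NWu C t (q γ).1 i j ∧ ‖wd (yy (q γ).1 i j) y‖ ≤ D / t ^ 3) →
      S.card ≤ N := by
  let q' : Γ →* Matrix (Fin 3) (Fin 3) k :=
    { toFun := fun γ => (q γ).1
      map_one' := by rw [map_one]; rfl
      map_mul' := fun a b => by rw [map_mul]; rfl }
  exact card_le' q' hfin C D hD

end Group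

end Vale.Agent.P092.H719.U
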